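import Crest.Agent.X262.Nf68.Main
import Crest.Agent.X262.Ex91.Dat

/-!
# Row 262, G4 / CERT (helper68), part 3: the conditions `Emp` for the example
-/

set_option autoImplicit false

namespace Crest.Agent.X262.Nf68

theorem empM : Ex91.Emp (Ex91.lz Ex91.eM) := ⟨qtM, nlM, rk2M, rk3M⟩

theorem empN : Ex91.Emp (Ex91.lz Ex91.eN) := ⟨qtN, nlN, rk2N, rk3N⟩

theorem cert_of (hc : Top.SmCub (Pf19.cub Nc29.om)) (hl : Pf19.NoLine ℂ Nc29.om)
    (hn : Pf19.NoConic ℂ Nc29.om) : St91.CertStmt := Ex91.cert_of empM empN hc hl hn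

end Crest.Agent.X262.Nf68
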