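import Crest.Agent.X262.St91.Nf
import Crest.Agent.X262.Cert63.Kit
import Crest.Agent.X262.Cert21.Pl

/-!
# Row 262, G4 / CERT (helper68), part 1: from certificates modulo `101` to the fields of `NF`

* `no_pt`, `nz` : absence of common zeros;
* `qt_of`, `nl_of`, `rk2_of`, `rk3_of` : the four conditions on an integral matrix `e`.
-/

set_option autoImplicit false

open MvPolynomial IsLocalRing

noncomputable section

namespace Crest.Agent.X262.Nf68

open Crest.Agent.X262.Cert63 Crest.Agent.X262.St91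
open Crest.Agent.X262.Mv99 (Qt)

section Ring

variable {R : Type} [CommRing R]

/-- extension by zero -/
def xt {n : ℕ} (z : Fin n → R) (i : ℕ) : R := if h : i < n then z ⟨i, h⟩ else 0

theorem xt_val {n : ℕ} (z : Fin n → R) (i : Fin n) : xt z i = z i := dif_pos i.2

theorem map_xt {S : Type} [CommRing S] (φ : R →+* S) {n : ℕ} (z : Fin n → R) :
    (fun i => φ (xt z i)) = xt fun i => φ (z i) := by
  funext i
  unfold xt
  split_ifs
  · rfl
  · exact map_zero φ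

theorem eval_ev {n : ℕ} (z : Fin n → R) (e : E) : eval z (e.ev (xt X)) = e.ev (xt z) := by
  rw [E.map_ev, map_xt]
  simp

/-- integers -/
def zc (z : ℤ) : E := Int.rec (fun n => E.n n) (fun n => E.neg (E.n (Nat.succ n))) z

theorem ev_zc (y : ℕ → R) (z : ℤ) : (zc z).ev y = z := by
  cases z with
  | ofNat n => exact (Int.cast_natCast n).symm
  | negSucc n => exact (Int.cast_negSucc n).symm

/-- substitution -/
def sb (σ : ℕ → E) (e : E) : E :=
  E.rec σ E.n (fun _ _ a b => E.add a b) (fun _ _ a b => E.mul a b) (fun _ a => E.neg a)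
    (fun _ k a => E.pow a k) e

theorem ev_sb (y : ℕ → R) (σ : ℕ → E) (e : E) : (sb σ e).ev y = e.ev fun i => (σ i).ev y := by
  induction e with
  | v i => rfl
  | n c => rfl
  | add a b ha hb => exact congrArg₂ (· + ·) ha hb
  | mul a b ha hb => exact congrArg₂ (· * ·) ha hb
  | neg a ha => exact congrArg (fun t : R => -t) ha
  | pow a k ha => exact congrArg (· ^ k) ha

/-- derivative -/
def der (i : ℕ) (e : E) : E :=
  E.rec (fun j => cond (Nat.beq j i) (E.n 1) (E.n 0)) (fun _ => E.n 0) (fun _ _ a b => E.add a b)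
    (fun x y a b => E.add (E.mul a y) (E.mul x b)) (fun _ a => E.neg a)
    (fun x k a => E.mul (E.mul (E.n k) (E.pow x (Nat.pred k))) a) e

theorem pderiv_ev {n : ℕ} (i : Fin n) (e : E) :
    pderiv i (e.ev (xt (X : Fin n → MvPolynomial (Fin n) R))) = (der i e).ev (xt X) := by
  induction e with
  | v j =>
    change pderiv i (xt X j) = (cond (Nat.beq j i) (E.n 1) (E.n 0)).ev _
    rcases h : Nat.beq j i with _ | _
    · have h1 : j ≠ i := fun h' => by simp [h'] at h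
      simp only [xt, cond_false, E.ev_n, Nat.cast_zero]
      split_ifs
      · exact pderiv_X_of_ne fun h2 => h1 (congrArg Fin.val h2)
      · exact map_zero _
    · rw [Nat.eq_of_beq_eq_true h, xt_val]
      simp
  | n c => exact ((pderiv i).map_natCast c).trans Nat.cast_zero.symm
  | add a b ha hb => exact (map_add _ _ _).trans (congrArg₂ (· + ·) ha hb)
  | mul a b ha hb =>
    rw [E.ev_mul', Derivation.leibniz, ha, hb, smul_eq_mul, smul_eq_mul, add_comm,
      mul_comm (b.ev _)]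
    rfl
  | neg a ha => exact (map_neg _ _).trans (congrArg (fun t => -t) ha)
  | pow a k ha =>
    rw [E.ev_pow', Derivation.leibniz_pow, ha, smul_eq_mul, nsmul_eq_mul, ← mul_assoc]
    rfl

/-- a vector with four prescribed entries -/
def cu (i j k l : ℕ) (a b c d : E) (m : ℕ) : E :=
  cond (Nat.beq m i) a (cond (Nat.beq m j) b (cond (Nat.beq m k) c (cond (Nat.beq m l) d (E.n 0))))

theorem ev_cu {i j k l : Fin 4} (h : ∀ m, m = i ∨ m = j ∨ m = k ∨ m = l) {z : Fin 4 → R}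
    {a b c d : E} {y : ℕ → R} (hi : a.ev y = z i) (hj : b.ev y = z j) (hk : c.ev y = z k)
    (hl : d.ev y = z l) : (fun m => (cu i j k l a b c d m).ev y) = xt z := by
  funext m
  have key : ∀ {q : Fin 4} {s t : E}, s.ev y = z q → (m ≠ q → t.ev y = xt z m) →
      (cond (Nat.beq m q) s t).ev y = xt z m := fun {q s t} h1 h2 => by
    rcases h3 : Nat.beq m q with _ | _
    · exact h2 fun h' => by simp [h'] at h3
    · rw [Nat.eq_of_beq_eq_true h3, xt_val]
      exact h1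
  refine key hi fun h1 => key hj fun h2 => key hk fun h3 => key hl fun h4 => ?_
  rw [xt, dif_neg fun h5 => ?_]
  · exact Nat.cast_zero
  · rcases h ⟨m, h5⟩ with h6 | h6 | h6 | h6
    exacts [h1 (congrArg Fin.val h6), h2 (congrArg Fin.val h6), h3 (congrArg Fin.val h6),
      h4 (congrArg Fin.val h6)]

/-- the linear forms -/
def lf (e : Fin 10 → Fin 4 → ℤ) (s : Fin 10) : E :=
  zc (e s 0) * E.v 0 + zc (e s 1) * E.v 1 + zc (e s 2) * E.v 2 + zc (e s 3) * E.v 3

/-- the cross product -/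
def crE (a0 a1 a2 b0 b1 b2 : E) : List E := [a1 * b2 - a2 * b1, a2 * b0 - a0 * b2, a0 * b1 - a1 * b0]

/-- the adjugate -/
def nnE (c : Fin 10 → E) : List E :=
  crE (c 4) (c 5) (c 6) (c 7) (c 8) (c 9) ++ crE (c 7) (c 8) (c 9) (c 1) (c 2) (c 3) ++
    crE (c 1) (c 2) (c 3) (c 4) (c 5) (c 6)

/-- the universal quartic in terms of the adjugate -/
def gE (c : Fin 10 → E) (n : ℕ → E) : E :=
  c 0 * (c 1 * n 0 + c 2 * n 1 + c 3 * n 2) + (n 3 * n 5 + n 5 * n 3 - 2 * (n 4 * n 4)) -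
    (n 0 * n 8 + n 2 * n 6 - 2 * (n 1 * n 7))

/-- the universal quartic -/
def gUE (c : Fin 10 → E) : E := gE c fun i => (nnE c).getD i 0

theorem ev_gUE (y : ℕ → R) (c : Fin 10 → E) : (gUE c).ev y = gU fun s => (c s).ev y := by
  simp [gUE, gE, nnE, crE, gU, dd, qq, nn, cr, zz]

theorem mem_nnE {c : Fin 10 → E} {f : E} (hf : f ∈ nnE c) :
    ∃ a b, ∀ {R : Type} [CommRing R] (y : ℕ → R), f.ev y = nn (fun s => (c s).ev y) a b := by
  simp only [nnE, crE, List.mem_append, List.mem_cons, List.not_mem_nil, or_false] at hf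
  rcases hf with ((rfl | rfl | rfl) | rfl | rfl | rfl) | rfl | rfl | rfl
  exacts [⟨0, 0, fun y => by simp [nn, cr, zz]⟩, ⟨0, 1, fun y => by simp [nn, cr, zz]⟩,
    ⟨0, 2, fun y => by simp [nn, cr, zz]⟩, ⟨1, 0, fun y => by simp [nn, cr, zz]⟩,
    ⟨1, 1, fun y => by simp [nn, cr, zz]⟩, ⟨1, 2, fun y => by simp [nn, cr, zz]⟩,
    ⟨2, 0, fun y => by simp [nn, cr, zz]⟩, ⟨2, 1, fun y => by simp [nn, cr, zz]⟩,
    ⟨2, 2, fun y => by simp [nn, cr, zz]⟩]

/-- a binary quadratic form -/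
def qE (a b c : ℤ) : E := zc a * (E.v 0 * E.v 0) + zc b * (E.v 0 * E.v 1) + zc c * (E.v 1 * E.v 1)

/-- the values on the conic -/
def zE (e : Fin 10 → Fin 4 → ℤ) (k : Fin 4) : Fin 3 → E :=
  ![qE (e 1 k) (e 2 k) (e 3 k), qE (e 4 k) (e 5 k) (e 6 k), qE (e 7 k) (e 8 k) (e 9 k)]

/-- a determinant of order three -/
def d3E (a b c : Fin 3 → E) : E :=
  a 0 * (b 1 * c 2 - b 2 * c 1) + a 1 * (b 2 * c 0 - b 0 * c 2) + a 2 * (b 0 * c 1 - b 1 * c 0)

/-- the minors -/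
def x4E (m : Fin 4 → Fin 3 → E) : List E :=
  [d3E (m 1) (m 2) (m 3), -d3E (m 0) (m 2) (m 3), d3E (m 0) (m 1) (m 3), -d3E (m 0) (m 1) (m 2)]

theorem mem_x4E {m : Fin 4 → Fin 3 → E} {f : E} (hf : f ∈ x4E m) :
    ∃ a, ∀ {R : Type} [CommRing R] (y : ℕ → R), f.ev y = x4 (fun k r => (m k r).ev y) a := by
  simp only [x4E, List.mem_cons, List.not_mem_nil, or_false] at hf
  rcases hf with rfl | rfl | rfl | rfl
  exacts [⟨0, fun y => by simp [x4, d3, cr, d3E]⟩, ⟨1, fun y => by simp [x4, d3, cr, d3E]⟩,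
    ⟨2, fun y => by simp [x4, d3, cr, d3E]⟩, ⟨3, fun y => by simp [x4, d3, cr, d3E]⟩]

/-- the complex matrix -/
def cE (e : Fin 10 → Fin 4 → ℤ) : Fin 10 → Fin 4 → ℂ := fun s k => (e s k : ℂ)

variable [Algebra ℂ R]

theorem ev_lf (e : Fin 10 → Fin 4 → ℤ) (z : Fin 4 → R) :
    (fun s => (lf e s).ev (xt z)) = lr (cE e) z := by
  funext s
  simp [lf, ev_zc, lr, cE, Fin.sum_univ_four, xt]

theorem ev_zE (e : Fin 10 → Fin 4 → ℤ) (t : Fin 2 → R) :
    (fun k r => (zE e k r).ev (xt t)) = zm (cE e) t := by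
  funext k r
  fin_cases r <;> simp [zE, qE, ev_zc, zm, za, cE, xt]

end Ring

/-! ### certificates -/

/-- `∑ g f + t = 0` modulo `101`; the cofactors have degree `≤ d` in `r` variables -/
def ok (r d w k : ℕ) (ds : List ℕ) (fs : List E) (t : E) (N : ℕ) : Bool :=
  E.okP 100 w k ds (E.add (cmb (dec 7 0 r d) (Nat.mul 7 (bin r d)) fs N) t)

theorem exists_V : ∃ V : ValuationSubring ℂ, ((100 + 1 : ℕ) : ResidueField V) = 0 :=
  let ⟨P⟩ := Cert21.exists_pl (p := 101) (by norm_num) (Cert21.exists_indep 0).choose_spec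
  ⟨P.V, P.hp⟩

theorem no_pt {V : ValuationSubring ℂ} (hV : ((100 + 1 : ℕ) : ResidueField V) = 0) {n : ℕ}
    (y : Fin n → V) {r d w k N : ℕ} {ds : List ℕ} {fs : List E} {t : E}
    (h : ok r d w k ds fs t N = true) (hf : ∀ f ∈ fs, f.ev (xt fun i => (y i : ℂ)) = 0)
    (ht : t.ev (xt y) = 1) : False := by
  have h1 := E.ev_of_okP h hV fun i => residue V (xt y i)
  rw [E.ev_add', ev_cmb _ _ fun f hf' => ?_, zero_add, ← E.map_ev, ht, map_one] at h1
  · exact one_ne_zero h1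
  · have h2 : f.ev (xt y) = 0 := Subtype.ext (by
      have h3 := E.map_ev V.subtype (x := xt y) f
      rw [map_xt] at h3
      exact h3.trans (hf f hf'))
    rw [← E.map_ev, h2, map_zero]

/-- forms without common zero -/
theorem nz {n : ℕ} {fs : List E} {d w k m : ℕ} {ds : List ℕ} {N : Fin n → ℕ}
    (hc : ∀ i : Fin n, ok n d w k ds fs (E.pow (E.v i) m) (N i) = true)
    (hom : ∀ f ∈ fs, ∃ d, (f.ev (xt (X : Fin n → MvPolynomial (Fin n) ℂ))).IsHomogeneous d)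
    {z : Fin n → ℂ} (hz : ∀ f ∈ fs, f.ev (xt z) = 0) : z = 0 := by
  by_contra h0
  obtain ⟨V, hV⟩ := exists_V
  obtain ⟨i, y, -, h1, h2⟩ := Cert21.exists_nrm V h0
  refine no_pt hV y (hc i) (fun f hf => ?_) (by simp [xt_val, h1])
  obtain ⟨d, hd⟩ := hom f hf
  rw [← eval_ev, funext h2, Cert21.eval_mul_hom hd, eval_ev, hz f hf, mul_zero]

variable {e : Fin 10 → Fin 4 → ℤ}

theorem rk2_of {d w k m : ℕ} {ds : List ℕ} {N : Fin 4 → ℕ}
    (hc : ∀ i : Fin 4, ok 4 d w k ds (nnE (lf e)) (E.pow (E.v i) m) (N i) = true) (x : Fin 4 → ℂ)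
    (hx : x ≠ 0) : nn (ln (cE e) x) ≠ 0 := fun h => hx (nz hc (fun f hf => by
      obtain ⟨a, b, h1⟩ := mem_nnE hf
      rw [h1, ev_lf]
      exact ⟨2, (hg_X.lr _).nn a b⟩) fun f hf => by
    obtain ⟨a, b, h1⟩ := mem_nnE hf
    rw [h1, ev_lf]
    exact congrFun (congrFun h a) b)

theorem rk3_of {d w k m : ℕ} {ds : List ℕ} {N : Fin 2 → ℕ}
    (hc : ∀ i : Fin 2, ok 2 d w k ds (x4E (zE e)) (E.pow (E.v i) m) (N i) = true) (t : Fin 2 → ℂ)
    (ht : t ≠ 0) : x4 (zm (cE e) t) ≠ 0 := fun h => ht (nz hc (fun f hf => by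
      obtain ⟨a, h1⟩ := mem_x4E hf
      rw [h1, ev_zE]
      refine ⟨6, Hg.x4 (fun k r => ?_) a⟩
      have h2 : ∀ (c : ℂ) (i j : Fin 2), (algebraMap ℂ (MvPolynomial (Fin 2) ℂ) c *
          (X i * X j)).IsHomogeneous 2 := fun c i j =>
        (isHomogeneous_C _ c).mul ((isHomogeneous_X ℂ i).mul (isHomogeneous_X ℂ j))
      fin_cases r <;> exact ((h2 ..).add (h2 ..)).add (h2 ..)) fun f hf => by
    obtain ⟨a, h1⟩ := mem_x4E hf
    rw [h1, ev_zE]
    exact congrFun h a)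

theorem hom_gU : (gU (lr (cE e) X) : MvPolynomial (Fin 4) ℂ).IsHomogeneous 4 := by
  have h := hg_X.lr (cE e)
  have h2 : ∀ a b : Fin 3, (qq (nn (lr (cE e) X) a) (nn (lr (cE e) X) b) :
      MvPolynomial (Fin 4) ℂ).IsHomogeneous 4 := fun a b =>
    (((h.nn a 0).mul (h.nn b 2)).add ((h.nn a 2).mul (h.nn b 0))).sub
      ((isHomogeneous_C _ (2 : ℂ)).mul ((h.nn a 1).mul (h.nn b 1)))
  exact (((h 0).mul h.dd).add (h2 1 1)).sub (h2 0 2)

theorem gU_eq {G : E} {w : ℕ} {ds : List ℕ} (h : (gUE (lf e) - G).okZ w ds = true) :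
    (gU (lr (cE e) X) : MvPolynomial (Fin 4) ℂ) = G.ev (xt X) := by
  have h1 := E.ev_of_okZ h (xt (X : Fin 4 → MvPolynomial (Fin 4) ℂ))
  rwa [E.ev_sub, ev_gUE, ev_lf, sub_eq_zero] at h1

theorem coeff_top {Γ : MvPolynomial (Fin 4) ℂ} (h : Γ.IsHomogeneous 4) :
    eval (Pi.single 3 1) Γ = coeff (Finsupp.single 3 4) Γ := by
  rw [eval_eq', Finset.sum_eq_single (Finsupp.single 3 4)]
  · simp [Fin.prod_univ_four]
  · intro d hd h1
    have h2 : d 0 + d 1 + d 2 + d 3 = 4 := by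
      have h3 := h (mem_support_iff.1 hd)
      rw [Finsupp.weight_apply, Finsupp.sum_fintype _ _ (by simp)] at h3
      simpa [Fin.sum_univ_four] using h3
    by_contra h3
    simp [Fin.prod_univ_four] at h3
    refine h1 (Finsupp.ext fun i => ?_)
    fin_cases i <;> simp <;> omega
  · intro h1
    rw [notMem_support_iff.1 h1, zero_mul]

theorem qt_of {Γ : MvPolynomial (Fin 4) ℂ} {G : E} (hG : Γ = G.ev (xt X)) (h : Γ.IsHomogeneous 4)
    (h3 : Nat.beq (G.eZ fun i => cond (Nat.beq i 3) 1 0).natAbs 0 = false)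
    {d w k m : ℕ} {ds : List ℕ} {N : Fin 4 → ℕ}
    (hc : ∀ i : Fin 4,
      ok 4 d w k ds [der 0 G, der 1 G, der 2 G, der 3 G] (E.pow (E.v i) m) (N i) = true) :
    Qt Γ := by
  have key : ∀ f ∈ [der 0 G, der 1 G, der 2 G, der 3 G], ∃ i : Fin 4,
      f.ev (xt X) = pderiv i Γ := fun f hf => by
    simp only [List.mem_cons, List.not_mem_nil, or_false] at hf
    rw [hG]
    rcases hf with rfl | rfl | rfl | rfl
    exacts [⟨0, (pderiv_ev 0 G).symm⟩, ⟨1, (pderiv_ev 1 G).symm⟩, ⟨2, (pderiv_ev 2 G).symm⟩,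
      ⟨3, (pderiv_ev 3 G).symm⟩]
  refine ⟨h, fun h0 => ?_, fun p hp _ => by_contra fun h0 => hp (nz hc (fun f hf => ?_) fun f hf => ?_)⟩
  · rw [← coeff_top h, hG, eval_ev] at h0
    have h1 := E.map_ev (Int.castRingHom ℂ) (x := fun i => ((cond (Nat.beq i 3) 1 0 : ℕ) : ℤ)) G
    rw [← E.eZ_eq, show (fun i => Int.castRingHom ℂ ((cond (Nat.beq i 3) 1 0 : ℕ) : ℤ)) =
      xt (Pi.single (3 : Fin 4) (1 : ℂ)) from ?_, h0, eq_intCast, Int.cast_eq_zero] at h1
    · simp [h1] at h3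
    · funext i
      rcases i with _ | _ | _ | _ | i <;> simp [xt, Nat.beq]
  · obtain ⟨i, h1⟩ := key f hf
    exact ⟨_, h1 ▸ h.pderiv⟩
  · obtain ⟨i, h1⟩ := key f hf
    rw [← eval_ev, h1]
    exact by_contra fun h2 => h0 ⟨i, h2⟩

/-- the quartic at five points of a line of the chart `(i, j)` -/
def lnE (G : E) (i j k l : ℕ) : List E :=
  sb (cu i j k l (E.n 0) (E.n 1) (E.v 2) (E.v 3)) G :: [0, 1, 2, 3].map fun s =>
    sb (cu i j k l (E.n 1) (E.n s) (E.v 0 + E.n s * E.v 2) (E.v 1 + E.n s * E.v 3)) G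

theorem no_chart {V : ValuationSubring ℂ} (hV : ((100 + 1 : ℕ) : ResidueField V) = 0) {G : E}
    {i j k l : Fin 4} (h : ∀ m, m = i ∨ m = j ∨ m = k ∨ m = l) {d w c N : ℕ} {ds : List ℕ}
    (hc : ok 4 d w c ds (lnE G i j k l) (E.n 1) N = true) (a b : Fin 4 → V)
    (hab : ∀ s t : ℂ, G.ev (xt fun m => s * a m + t * b m) = 0) (h1 : a i = 1) (h2 : a j = 0)
    (h3 : b i = 0) (h4 : b j = 1) : False := by
  refine no_pt hV ![a k, a l, b k, b l] hc (fun f hf => ?_) Nat.cast_one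
  simp only [lnE, List.mem_cons, List.mem_map] at hf
  rcases hf with rfl | ⟨s, -, rfl⟩
  · rw [ev_sb, ev_cu h (z := fun m => (0 : ℂ) * a m + 1 * b m), hab] <;> simp [h3, h4, xt]
  · rw [ev_sb, ev_cu h (z := fun m => (1 : ℂ) * a m + s * b m), hab] <;> simp [h1, h2, h3, h4, xt]

theorem nl_of {Γ : MvPolynomial (Fin 4) ℂ} {G : E} (hG : Γ = G.ev (xt X)) {d w c : ℕ}
    {ds : List ℕ} {N0 N1 N2 N3 N4 N5 : ℕ}
    (c0 : ok 4 d w c ds (lnE G 0 1 2 3) (E.n 1) N0 = true)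
    (c1 : ok 4 d w c ds (lnE G 0 2 1 3) (E.n 1) N1 = true)
    (c2 : ok 4 d w c ds (lnE G 0 3 1 2) (E.n 1) N2 = true)
    (c3 : ok 4 d w c ds (lnE G 1 2 0 3) (E.n 1) N3 = true)
    (c4 : ok 4 d w c ds (lnE G 1 3 0 2) (E.n 1) N4 = true)
    (c5 : ok 4 d w c ds (lnE G 2 3 0 1) (E.n 1) N5 = true) : NoL Γ := by
  intro u v huv
  by_contra h0
  have h1 : wd u v ≠ 0 := fun h => h0 fun i j => sub_eq_zero.1 (congrFun h (i, j))
  obtain ⟨V, hV⟩ := exists_V
  obtain ⟨⟨i, j⟩, y, h2, h3, h4⟩ := Cert21.exists_nrm V h1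
  have hz : ∀ m, y (m, m) = 0 := fun m => Subtype.ext (by simp [h4, wd])
  have hab : ∀ s t : ℂ, G.ev (xt fun m => s * y (m, j) + t * y (i, m)) = 0 := fun s t => by
    rw [← eval_ev, ← hG, ← huv ((wd u v (i, j))⁻¹ * (s * v j - t * v i))
      ((wd u v (i, j))⁻¹ * (t * u i - s * u j))]
    congr 2
    funext m
    simp only [h4, wd, Pi.add_apply, Pi.smul_apply, smul_eq_mul]
    ring
  have hba : ∀ s t : ℂ, G.ev (xt fun m => s * y (i, m) + t * y (m, j)) = 0 := fun s t => by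
    simpa only [add_comm] using hab t s
  have hij : i ≠ j := fun h => h2 (by simp [h, wd])
  have A := fun {k l : Fin 4} h {N : ℕ} hc => no_chart hV (i := i) (j := j) (k := k) (l := l) h
    (d := d) (w := w) (c := c) (N := N) (ds := ds) hc (fun m => y (m, j)) (fun m => y (i, m)) hab h3
    (hz j) (hz i) h3
  have B := fun {k l : Fin 4} h {N : ℕ} hc => no_chart hV (i := j) (j := i) (k := k) (l := l) h
    (d := d) (w := w) (c := c) (N := N) (ds := ds) hc (fun m => y (i, m)) (fun m => y (m, j)) hba h3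
    (hz i) (hz j) h3
  clear hab hba h2 h3 h4
  fin_cases i <;> fin_cases j
  exacts [hij rfl, A (k := 2) (l := 3) (by decide) c0, A (k := 1) (l := 3) (by decide) c1,
    A (k := 1) (l := 2) (by decide) c2, B (k := 2) (l := 3) (by decide) c0, hij rfl,
    A (k := 0) (l := 3) (by decide) c3, A (k := 0) (l := 2) (by decide) c4,
    B (k := 1) (l := 3) (by decide) c1, B (k := 0) (l := 3) (by decide) c3, hij rfl,
    A (k := 0) (l := 1) (by decide) c5, B (k := 1) (l := 2) (by decide) c2,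
    B (k := 0) (l := 2) (by decide) c4, B (k := 0) (l := 1) (by decide) c5, hij rfl]

end Crest.Agent.X262.Nf68
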